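import Vale.Agent.P235.H427.PK

/-!
P235, line XC: plane graphs have no minor `K_5` (helper183).
-/

set_option linter.all false
set_option autoImplicit false

namespace Vale.Agent.P235.XC.H183

open SimpleGraph Vale.Agent.P235 Vale.Agent.P235.H134 Vale.Agent.P235.H56 Vale.Agent.P235.Quo

theorem dart_card5 (Q : SimpleGraph (Fin 5)) : Nat.card Q.Dart = 2 * Nat.card Q.edgeSet := by
  classical
  rw [Nat.card_eq_fintype_card, Nat.card_eq_fintype_card, Q.dart_card_eq_twice_card_edges,
    ← SimpleGraph.edgeFinset_card]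

/-- `K_5` on five vertices has no plane map -/
theorem noK5 (σ : Equiv.Perm (⊤ : SimpleGraph (Fin 5)).Dart)
    (hP : PlaneMap (⊤ : SimpleGraph (Fin 5)) σ) : False := by
  classical
  have : Fintype (⊤ : SimpleGraph (Fin 5)).Dart := Fintype.ofFinite _
  set F := Quotient (Equiv.Perm.SameCycle.setoid (faceNext σ)) with hF
  have : Fintype F := Fintype.ofFinite _
  have hfst : ∀ d : (⊤ : SimpleGraph (Fin 5)).Dart, (faceNext σ d).fst = d.snd :=
    fun d => hP.fst d.symm
  have hne1 : ∀ d : (⊤ : SimpleGraph (Fin 5)).Dart, faceNext σ d ≠ d := by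
    intro d e
    have h1 := hfst d
    rw [e] at h1
    exact d.adj.ne h1
  have hne2 : ∀ d : (⊤ : SimpleGraph (Fin 5)).Dart, faceNext σ (faceNext σ d) ≠ d := by
    intro d e
    have h1 : (faceNext σ d).snd = d.fst := by
      rw [← hfst, e]
    have h2 : faceNext σ d = d.symm :=
      SimpleGraph.Dart.ext _ _ (Prod.ext (hfst d) h1)
    have h3 : σ d.symm = d.symm := h2
    obtain ⟨w, hw1, hw2⟩ : ∃ w : Fin 5, w ≠ d.symm.fst ∧ w ≠ d.symm.snd := by
      generalize d.symm.fst = a
      generalize d.symm.snd = b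
      revert a b
      decide
    have h5 := hP.cyc d.symm ⟨(d.symm.fst, w), hw1.symm⟩ rfl
    have h6 : Function.IsFixedPt σ d.symm := h3
    have h7 := Equiv.Perm.SameCycle.eq_of_left h5 h6
    exact hw2 (congrArg (fun x : (⊤ : SimpleGraph (Fin 5)).Dart => x.snd) h7).symm
  -- every face has at least three darts
  have hthree : ∀ c : F, 3 ≤ (Finset.univ.filter
      fun d : (⊤ : SimpleGraph (Fin 5)).Dart => (Quotient.mk _ d : F) = c).card := by
    intro c
    induction c using Quotient.inductionOn with
    | h d =>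
      have hmk : ∀ d : (⊤ : SimpleGraph (Fin 5)).Dart,
          (Quotient.mk _ (faceNext σ d) : F) = Quotient.mk _ d := fun d =>
        Quotient.sound (Equiv.Perm.sameCycle_apply_left.2 (Equiv.Perm.SameCycle.refl _ _))
      have hsub : ({d, faceNext σ d, faceNext σ (faceNext σ d)} :
          Finset (⊤ : SimpleGraph (Fin 5)).Dart) ⊆
          Finset.univ.filter fun d' : (⊤ : SimpleGraph (Fin 5)).Dart =>
            (Quotient.mk _ d' : F) = Quotient.mk _ d := by
        intro x hx
        simp only [Finset.mem_insert, Finset.mem_singleton] at hx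
        rw [Finset.mem_filter]
        refine ⟨Finset.mem_univ _, ?_⟩
        rcases hx with rfl | rfl | rfl
        · rfl
        · exact hmk _
        · rw [hmk, hmk]
      refine le_trans (le_of_eq ?_) (Finset.card_le_card hsub)
      have inj := (faceNext σ).injective
      rw [Finset.card_insert_of_notMem, Finset.card_insert_of_notMem, Finset.card_singleton]
      · rw [Finset.mem_singleton]
        exact fun e => hne1 _ (inj e).symm
      · simp only [Finset.mem_insert, Finset.mem_singleton, not_or]
        exact ⟨fun e => hne1 _ e.symm, fun e => hne2 _ e.symm⟩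
  have hcount : Fintype.card F * 3 ≤ Fintype.card (⊤ : SimpleGraph (Fin 5)).Dart := by
    have h1 := Finset.card_eq_sum_card_fiberwise
      (s := (Finset.univ : Finset (⊤ : SimpleGraph (Fin 5)).Dart))
      (t := (Finset.univ : Finset F)) (f := fun d => (Quotient.mk _ d : F))
      (fun _ _ => Finset.mem_coe.2 (Finset.mem_univ _))
    rw [Finset.card_univ] at h1
    rw [h1]
    calc Fintype.card F * 3 = ∑ _c : F, 3 := by simp
      _ ≤ _ := Finset.sum_le_sum fun c _ => hthree c
  have hedge : Nat.card (⊤ : SimpleGraph (Fin 5)).edgeSet = 10 := by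
    rw [Nat.card_eq_fintype_card, ← SimpleGraph.edgeFinset_card,
      SimpleGraph.card_edgeFinset_top_eq_card_choose_two]
    decide
  have hdart : Fintype.card (⊤ : SimpleGraph (Fin 5)).Dart =
      2 * Nat.card (⊤ : SimpleGraph (Fin 5)).edgeSet := by
    rw [← Nat.card_eq_fintype_card]
    exact dart_card5 _
  have heul := hP.euler
  rw [Nat.card_eq_fintype_card (α := F), hedge] at heul
  have h6 : Nat.card (Fin 5) = 5 := by simp
  rw [h6] at heul
  rw [hdart, hedge] at hcount
  omega

/-- **plane graphs have no minor `K_5`** -/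
theorem pk5 (V : Type) [Finite V] (G : SimpleGraph V) (hG : G.Connected)
    (hP : ∃ σ : Equiv.Perm G.Dart, PlaneMap G σ) : ¬ IsMinor (⊤ : SimpleGraph (Fin 5)) G := by
  intro hm
  obtain ⟨φ, h1, h2⟩ := exists_model hG ⟨0⟩ hm
  obtain ⟨σ', hσ'⟩ := rowQuo Vale.Agent.P235.R2.H582.Contract.rowCon V (Fin 5) G φ hG hP h1
    (by simp)
  have hQ : quo G φ = ⊤ := by
    rw [H427.quo_eq_quot]
    exact top_le_iff.1 h2
  revert σ'
  rw [hQ]
  intro σ' h
  exact noK5 σ' h

end Vale.Agent.P235.XC.H183
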