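import Vale.Agent.P235.XC.Defs
import Vale.Agent.P235.XC.H183.PK5
import Vale.Agent.P235.H830.Final
import Vale.Agent.P235.H141.Struct2
import Vale.Agent.P235.H134.Grid.Final
import Vale.Agent.P235.K5.W.H531.Start

/-!
P235, line XC, row [XS]: 3-connected graphs with `Q4` and without a minor `TX r` are plane or of
bounded treewidth (helper183).
-/

set_option linter.all false
set_option autoImplicit false

namespace Vale.Agent.P235.XC.H183

open SimpleGraph Vale.Agent.P235.H134 Vale.Agent.P235.H56 Vale.Agent.P235.H141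

/-- few vertices: one bag -/
theorem tw_small {V : Type} [Finite V] (G : SimpleGraph V) {k : ℕ} (h : Nat.card V ≤ k + 1) :
    TreewidthLE G k := by
  classical
  have := Fintype.ofFinite V
  refine ⟨Unit, inferInstance, ⊥, fun _ => Finset.univ, ?_, fun v => ⟨(), Finset.mem_univ v⟩,
    fun u v _ => ⟨(), Finset.mem_univ u, Finset.mem_univ v⟩, fun v => ?_, fun _ => ?_⟩
  · refine ⟨⟨fun x y => ?_⟩, isAcyclic_bot⟩
    rw [Subsingleton.elim x y]
  · intro x y
    rw [Subsingleton.elim x y]
  · rwa [Finset.card_univ, ← Nat.card_eq_fintype_card]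

theorem tw_mono {W : Type} {Q : SimpleGraph W} {k l : ℕ} (h : TreewidthLE Q k) (hkl : k ≤ l) :
    TreewidthLE Q l := by
  obtain ⟨κ, hκ, S, C, h1, h2, h3, h4, h5⟩ := h
  exact ⟨κ, hκ, S, C, h1, h2, h3, h4, fun t => (h5 t).trans (by omega)⟩

/-- **[XS]** -/
theorem piece (hC : CoreStmt) : PieceStmt := by
  intro r hr
  obtain ⟨R, hR⟩ := structStmt (H830.RR (RX r)) (by unfold H830.RR; omega)
  obtain ⟨w, hw⟩ := excludedGrid R
  refine ⟨max w 2, fun V _ G h3 hQ hno => ?_⟩
  by_cases h4 : 4 ≤ Nat.card V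
  · have hne : Nonempty V := (Nat.card_pos_iff.1 (by omega)).1
    have hG : G.Connected := (SimpleGraph.connected_iff G).2
      ⟨K5.W.H531.conn3_preconnected h3 h4, hne⟩
    by_cases hg : TreewidthLE G w
    · exact Or.inr (tw_mono hg (le_max_left _ _))
    · rcases hR V G h3 h4 hG (hw V G hG hg) with h | h
      · exact Or.inl ⟨H427.pk V G hG h, pk5 V G hG h⟩
      · exact absurd (hC r hr V G h3 hQ
          (H830.sPrime (RX r) (by unfold RX; omega) V G h3 h)) hno
  · exact Or.inr (tw_mono (tw_small G (k := 2) (by omega)) (le_max_right _ _))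

end Vale.Agent.P235.XC.H183
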